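import Vale.Agent.P089Z.Rep

/-! P089G: push-forward of cycles along equivariant proper maps. -/

set_option linter.all false

namespace Vale.Agent.P089GI

open scoped InnerProductSpace ZeroAtInfty
open Vale.Agent.P089 Vale.Agent.P089Z

variable {G X Y : Type} [Group G] [TopologicalSpace X] [MulAction G X] [ContinuousConstSMul G X]
  [TopologicalSpace Y] [MulAction G Y] [ContinuousConstSMul G Y]

theorem shift_comp (j : CocompactMap X Y) (hj : ∀ (g : G) x, j (g • x) = g • j x) (g : G)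
    (f : C₀(Y, ℂ)) : (shift g f).comp j = shift g (f.comp j) := by
  ext x
  change f (g⁻¹ • j x) = f (j (g⁻¹ • x))
  rw [hj]

theorem cutoff_comp (j : CocompactMap X Y) (hj : ∀ (g : G) x, j (g • x) = g • j x)
    {w : C₀(Y, ℂ)} (hw : IsCutoff G Y w) : IsCutoff G X (w.comp j) := by
  refine ⟨?_, fun x => hw.2.1 (j x), fun x => ?_⟩
  · refine HasCompactSupport.intro' (j.isCompact_preimage_of_isClosed hw.1 (isClosed_tsupport _))
      ((isClosed_tsupport _).preimage j.continuous) fun x hx => ?_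
    exact image_eq_zero_of_notMem_tsupport (f := w) hx
  · rw [← hw.2.2 (j x)]
    refine finsum_congr fun g => ?_
    change w (j (g⁻¹ • x)) ^ 2 = _
    rw [hj]

variable {H : Type} [NormedAddCommGroup H] [InnerProductSpace ℂ H] [CompleteSpace H]

theorem proj_push (j : CocompactMap X Y) (hj : ∀ (g : G) x, j (g • x) = g • j x)
    {Z : Cycle G X H} {Z' : Cycle G Y H} (hρ : ∀ f, Z'.ρ f = Z.ρ (f.comp j)) (hU : Z'.U = Z.U)
    (w : C₀(Y, ℂ)) : Z'.proj w = Z.proj (w.comp j) := by
  unfold Cycle.proj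
  refine finsum_congr fun s => ?_
  rw [hρ, hU, ← shift_comp j hj]
  rfl

theorem even_push {Z : Cycle G X H} {Z' : Cycle G Y H} (hγ : Z'.γ = Z.γ)
    (p : MonoidAlgebra (H →L[ℂ] H) G) : Z'.even p = Z.even p := by
  unfold Cycle.even
  rw [hγ]

theorem odd_push {Z : Cycle G X H} {Z' : Cycle G Y H} (hγ : Z'.γ = Z.γ)
    (p : MonoidAlgebra (H →L[ℂ] H) G) : Z'.odd p = Z.odd p := by
  unfold Cycle.odd
  rw [hγ]

theorem index_push {Z : Cycle G X H} {Z' : Cycle G Y H} (hγ : Z'.γ = Z.γ) (hF : Z'.F = Z.F)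
    (p : MonoidAlgebra (H →L[ℂ] H) G) : Z'.index p = Z.index p := by
  unfold Cycle.index
  rw [even_push hγ, odd_push hγ, hF]

/-- The pull back of functions along a proper map. -/
noncomputable def c0Pull (j : CocompactMap X Y) : C₀(Y, ℂ) →⋆ₙₐ[ℂ] C₀(X, ℂ) :=
  ⟨ZeroAtInftyContinuousMap.compNonUnitalAlgHom j, fun _ => rfl⟩

theorem c0Pull_apply (j : CocompactMap X Y) (f : C₀(Y, ℂ)) : c0Pull j f = f.comp j := rfl

/-- The push-forward of a cycle. -/
noncomputable def push (j : CocompactMap X Y) (hj : ∀ (g : G) x, j (g • x) = g • j x)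
    (Z : Cycle G X H) : Cycle G Y H where
  γ := Z.γ
  ρ := Z.ρ.comp (c0Pull j)
  U := Z.U
  F := Z.F
  γ_star := Z.γ_star
  γ_sq := Z.γ_sq
  ρ_even f := Z.ρ_even _
  U_even := Z.U_even
  F_odd := Z.F_odd
  covariant g f := (Z.covariant g (f.comp j)).trans (congrArg Z.ρ (shift_comp j hj g f).symm)
  compact_sq f := Z.compact_sq _
  compact_star f := Z.compact_star _
  compact_comm f := Z.compact_comm _
  compact_inv g f := Z.compact_inv g _

theorem push_ρ (j : CocompactMap X Y) (hj : ∀ (g : G) x, j (g • x) = g • j x)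
    (Z : Cycle G X H) (f : C₀(Y, ℂ)) : (push j hj Z).ρ f = Z.ρ (f.comp j) := rfl

theorem index_push' (j : CocompactMap X Y) (hj : ∀ (g : G) x, j (g • x) = g • j x)
    (Z : Cycle G X H) (w : C₀(Y, ℂ)) :
    (push j hj Z).index ((push j hj Z).proj w) = Z.index (Z.proj (w.comp j)) := by
  rw [proj_push j hj (push_ρ j hj Z) rfl]
  exact index_push (Z := Z) (Z' := push j hj Z) rfl rfl _

end Vale.Agent.P089GI
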