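import Vale.Agent.P089GI.Mix
import Vale.Agent.P089GI.Push
import Vale.Agent.P089GR.Gen

/-! P089G: the index class does not depend on the cutoff function and on the space. -/

set_option linter.all false

namespace Vale.Agent.P089GI

open scoped InnerProductSpace ZeroAtInfty
open Vale.Agent.P089 Vale.Agent.P089Z Vale.Agent.P089GR

variable {G X Y : Type} [Group G] [TopologicalSpace X] [MulAction G X] [ContinuousConstSMul G X]
  [TopologicalSpace Y] [MulAction G Y] [ContinuousConstSMul G Y]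
  {H : Type} [NormedAddCommGroup H] [InnerProductSpace ℂ H] [CompleteSpace H]
  {M Q B : Type} [Ring M] [Algebra ℂ M] [Ring Q] [NormedRing B] [NormedAlgebra ℂ B]
  [CompleteSpace B] {R : Rel M Q B}

/-- `d` is the image under `Φ` of the datum of the cycle `Z` and the projection `p`. -/
structure IsDat (Φ : MonoidAlgebra (H →L[ℂ] H) G →ₙ+* M) (Z : Cycle G X H)
    (p : MonoidAlgebra (H →L[ℂ] H) G) (d : IDat R) : Prop where
  p₀ : d.p₀ = Φ (Z.even p)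
  p₁ : d.p₁ = Φ (Z.odd p)
  T : d.T = Φ (Z.odd p * MonoidAlgebra.single 1 Z.F * Z.even p)
  S : d.S = Φ (Z.even p * MonoidAlgebra.single 1 Z.F * Z.odd p)

theorem q_eq_of {A : Type} [Ring A] (Φ : A →ₙ+* M) {x a y b : A}
    (h : R.q (Φ (x - a * y * b)) = 0) : R.q (Φ x) = R.q (Φ a * Φ y * Φ b) := by
  rw [map_sub, map_sub, sub_eq_zero] at h
  rw [h, map_mul Φ, map_mul Φ]

theorem ind_cutoff' [ProperlyDiscontinuousSMul G X] (Φ : MonoidAlgebra (H →L[ℂ] H) G →ₙ+* M)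
    (hΦ : ∀ a, P089Z.Ideal a → R.q (Φ a) = 0) (Z : Cycle G X H) {v w : C₀(X, ℂ)}
    (hv : IsCutoff G X v) (hw : IsCutoff G X w) {d d' : IDat R} (h : IsDat Φ Z (Z.proj v) d)
    (h' : IsDat Φ Z (Z.proj w) d') : d.ind = d'.ind := by
  refine d.ind_transport d' (Φ (Z.even (mix Z v w))) (Φ (Z.even (mix Z w v)))
    (Φ (Z.odd (mix Z v w))) (Φ (Z.odd (mix Z w v))) ?_ ?_ ?_ ?_ ?_ ?_
  · rw [← map_mul, even_mix Z hv hw, h.p₀]
  · rw [← map_mul, even_mix Z hw hv, h'.p₀]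
  · rw [← map_mul, odd_mix Z hv hw, h.p₁]
  · rw [← map_mul, odd_mix Z hw hv, h'.p₁]
  · rw [h.T, h'.T]
    exact q_eq_of Φ (hΦ _ (T_mix Z hv hw))
  · rw [h.S, h'.S]
    exact q_eq_of Φ (hΦ _ (S_mix Z hv hw))

theorem IsDat.of_push {Φ : MonoidAlgebra (H →L[ℂ] H) G →ₙ+* M} {Z : Cycle G X H}
    {Z' : Cycle G Y H} (hγ : Z'.γ = Z.γ) (hF : Z'.F = Z.F) {p : MonoidAlgebra (H →L[ℂ] H) G}
    {d : IDat R} (h : IsDat Φ Z' p d) : IsDat Φ Z p d where
  p₀ := by rw [h.p₀, even_push hγ]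
  p₁ := by rw [h.p₁, odd_push hγ]
  T := by rw [h.T, even_push hγ, odd_push hγ, hF]
  S := by rw [h.S, even_push hγ, odd_push hγ, hF]

theorem ind_push' [ProperlyDiscontinuousSMul G X] (Φ : MonoidAlgebra (H →L[ℂ] H) G →ₙ+* M)
    (hΦ : ∀ a, P089Z.Ideal a → R.q (Φ a) = 0) (j : CocompactMap X Y)
    (hj : ∀ (g : G) x, j (g • x) = g • j x) {Z : Cycle G X H} {Z' : Cycle G Y H}
    (hγ : Z'.γ = Z.γ) (hρ : ∀ f, Z'.ρ f = Z.ρ (f.comp j)) (hU : Z'.U = Z.U) (hF : Z'.F = Z.F)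
    {v : C₀(X, ℂ)} {w : C₀(Y, ℂ)} (hv : IsCutoff G X v) (hw : IsCutoff G Y w) {d d' : IDat R}
    (h : IsDat Φ Z (Z.proj v) d) (h' : IsDat Φ Z' (Z'.proj w) d') : d.ind = d'.ind := by
  rw [proj_push j hj hρ hU] at h'
  exact ind_cutoff' Φ hΦ Z hv (cutoff_comp j hj hw) h (h'.of_push hγ hF)

end Vale.Agent.P089GI
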