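import Vale.Agent.P089Z.Rep

/-! P089G: change of the cutoff function, of the basis and of the space. -/

set_option linter.all false

namespace Vale.Agent.P089GI

open scoped InnerProductSpace ZeroAtInfty
open Vale.Agent.P089 Vale.Agent.P089Z Vale.Agent.P089.Asm Vale.Agent.P089.Ind

section Space

variable {G X : Type} [Group G] [TopologicalSpace X] [MulAction G X] [ContinuousConstSMul G X]

theorem finite_mix [ProperlyDiscontinuousSMul G X] {v w : C₀(X, ℂ)} (hv : HasCompactSupport v)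
    (hw : HasCompactSupport w) : {s : G | v * shift s w ≠ 0}.Finite := by
  refine (ProperlyDiscontinuousSMul.finite_disjoint_inter_image (Γ := G) hw hv).subset ?_
  intro s hs
  have h1 : ∃ x, v x * w (s⁻¹ • x) ≠ 0 := by
    by_contra h
    push Not at h
    exact hs (ZeroAtInftyContinuousMap.ext h)
  obtain ⟨x, hx⟩ := h1
  obtain ⟨h2, h3⟩ := mul_ne_zero_iff.1 hx
  exact ⟨x, ⟨s⁻¹ • x, subset_tsupport _ h3, smul_inv_smul s x⟩, subset_tsupport _ h2⟩

theorem sum_mix {w : C₀(X, ℂ)} (hw : IsCutoff G X w) (v v' : C₀(X, ℂ)) (T : Finset G)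
    (hT : ∀ t, v * shift t w ≠ 0 → t ∈ T) (s : G) :
    ∑ t ∈ T, (v * shift t w) * shift t (w * shift (t⁻¹ * s) v') = v * shift s v' := by
  ext x
  rw [sum_apply_C0]
  have h1 : ∀ t : G, ((v * shift t w) * shift t (w * shift (t⁻¹ * s) v')) x =
      (v x * v' (s⁻¹ • x)) * w (t⁻¹ • x) ^ 2 := fun t => by
    rw [shift_mul, shift_shift, mul_inv_cancel_left]
    change v x * w (t⁻¹ • x) * (w (t⁻¹ • x) * v' (s⁻¹ • x)) = _
    ring
  rw [Finset.sum_congr rfl fun t _ => h1 t, ← Finset.mul_sum]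
  change _ = v x * v' (s⁻¹ • x)
  by_cases hx : v x = 0
  · rw [hx, zero_mul, zero_mul]
  · have h2 : ∑ t ∈ T, w (t⁻¹ • x) ^ 2 = 1 := by
      rw [← hw.2.2 x]
      refine (finsum_eq_sum_of_support_subset _ fun t ht => ?_).symm
      refine hT t fun h0 => ht ?_
      have h3 : v x * w (t⁻¹ • x) = 0 := congrArg (fun f : C₀(X, ℂ) => f x) h0
      have h4 := (mul_eq_zero.1 h3).resolve_left hx
      change w (t⁻¹ • x) ^ 2 = 0
      rw [h4]
      exact zero_pow two_ne_zero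
    rw [h2, mul_one]

variable {H : Type} [NormedAddCommGroup H] [InnerProductSpace ℂ H] [CompleteSpace H]
  (Z : Cycle G X H)

/-- The element `∑_s ρ(v · s w) U_s ⊗ λ_s`. -/
noncomputable def mix (v w : C₀(X, ℂ)) : MonoidAlgebra (H →L[ℂ] H) G :=
  ∑ᶠ s : G, MonoidAlgebra.single s (Z.ρ (v * shift s w) * (Z.U s).1)

theorem mix_self (w : C₀(X, ℂ)) : mix Z w w = Z.proj w := rfl

theorem coeff_mix {v w : C₀(X, ℂ)} (hfin : {s : G | v * shift s w ≠ 0}.Finite) (s : G) :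
    (mix Z v w).coeff s = Z.ρ (v * shift s w) * (Z.U s).1 := by
  classical
  have h1 : mix Z v w = ∑ t ∈ hfin.toFinset,
      MonoidAlgebra.single t (Z.ρ (v * shift t w) * (Z.U t).1) := by
    refine finsum_eq_sum_of_support_subset _ fun t ht => ?_
    rw [Set.Finite.coe_toFinset]
    intro h0
    apply ht
    change MonoidAlgebra.single t (Z.ρ (v * shift t w) * (Z.U t).1) = 0
    rw [h0, map_zero, zero_mul, MonoidAlgebra.single_zero]
  rw [h1, MonoidAlgebra.coeff_sum, Finsupp.finsetSum_apply]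
  simp only [MonoidAlgebra.coeff_single, Finsupp.single_apply]
  rw [Finset.sum_ite_eq']
  split_ifs with hs
  · rfl
  · rw [Set.Finite.mem_toFinset, Set.mem_ofPred_eq, not_not] at hs
    rw [hs, map_zero, zero_mul]

variable [ProperlyDiscontinuousSMul G X]

theorem mix_mul {v w v' : C₀(X, ℂ)} (hv : HasCompactSupport v) (hw : IsCutoff G X w)
    (hv' : HasCompactSupport v') : mix Z v w * mix Z w v' = mix Z v v' := by
  classical
  have f1 := finite_mix (G := G) hv hw.1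
  have f2 := finite_mix (G := G) hw.1 hv'
  have f3 := finite_mix (G := G) hv hv'
  ext1
  ext1 s
  rw [MonoidAlgebra.coeff_mul_apply_left, Finsupp.sum_of_support_subset (s := f1.toFinset)]
  · rw [coeff_mix Z f3, ← sum_mix hw v v' f1.toFinset (fun t ht => f1.mem_toFinset.2 ht) s,
      map_sum, Finset.sum_mul]
    refine Finset.sum_congr rfl fun t _ => ?_
    rw [coeff_mix Z f1, coeff_mix Z f2, map_mul Z.ρ (v * shift t w), mul_assoc,
      ← mul_assoc (Z.U t).1, Z.U_rho, mul_assoc (Z.ρ (shift t _)), Z.U_mul, mul_inv_cancel_left,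
      mul_assoc (Z.ρ (v * shift t w))]
  · intro t ht
    rw [Finsupp.mem_support_iff, coeff_mix Z f1] at ht
    rw [Set.Finite.mem_toFinset]
    intro h0
    apply ht
    rw [h0, map_zero, zero_mul]
  · intro t _
    rw [zero_mul]

theorem mix_comm {v w : C₀(X, ℂ)} (hv : HasCompactSupport v) (hw : HasCompactSupport w)
    {e : H →L[ℂ] H} (h1 : ∀ f, e * Z.ρ f = Z.ρ f * e) (h2 : ∀ g, e * (Z.U g).1 = (Z.U g).1 * e) :
    mix Z v w * MonoidAlgebra.single 1 e = MonoidAlgebra.single 1 e * mix Z v w := by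
  ext1
  ext1 s
  rw [MonoidAlgebra.coeff_mul_single_one, MonoidAlgebra.coeff_single_one_mul,
    coeff_mix Z (finite_mix hv hw), ← mul_assoc, h1, mul_assoc, mul_assoc, h2]

theorem mix_ideal {v w : C₀(X, ℂ)} (hv : HasCompactSupport v) (hw : HasCompactSupport w) :
    P089Z.Ideal (mix Z v w * MonoidAlgebra.single 1 Z.F - MonoidAlgebra.single 1 Z.F * mix Z v w) := by
  refine ⟨fun s => ?_⟩
  rw [MonoidAlgebra.coeff_sub, Finsupp.sub_apply, MonoidAlgebra.coeff_mul_single_one,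
    MonoidAlgebra.coeff_single_one_mul, coeff_mix Z (finite_mix hv hw)]
  set f := v * shift s w
  have h1 : Z.ρ f * (Z.U s).1 * Z.F - Z.F * (Z.ρ f * (Z.U s).1) =
      Z.ρ f * ((Z.U s).1 * Z.F * (Z.U s⁻¹).1 - Z.F) * (Z.U s).1 +
        (Z.ρ f * Z.F - Z.F * Z.ρ f) * (Z.U s).1 := by
    have h2 : (Z.U s⁻¹).1 * (Z.U s).1 = 1 := by rw [Z.U_mul, inv_mul_cancel, Z.U_one]
    have h3 : Z.ρ f * ((Z.U s).1 * Z.F * (Z.U s⁻¹).1 - Z.F) * (Z.U s).1 =
        Z.ρ f * (Z.U s).1 * Z.F * ((Z.U s⁻¹).1 * (Z.U s).1) - Z.ρ f * Z.F * (Z.U s).1 := by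
      noncomm_ring
    rw [h3, h2]
    noncomm_ring
  rw [h1]
  exact (Cp.mul_right (Z.compact_inv s f) _).add (Cp.mul_right (Z.compact_comm f) _)

end Space

section Alg

variable {B : Type} [Ring B]

theorem alg_eq {x y p e : B} (hxy : x * y = p) (hy : y * e = e * y) (he : e * e = e) :
    x * e * (y * e) = p * e := by
  rw [hy, mul_assoc, ← mul_assoc e e y, he, ← hy, ← mul_assoc, hxy]

theorem alg_df {x y p p' e e' F : B} (hyx : y * x = p') (hyp : y * p = y) (hpx : p * x = x)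
    (hyy : p' * y = y) (hx : x * e = e * x) (hy' : y * e' = e' * y)
    (hp : p * e = e * p) (hp' : p * e' = e' * p) (hq : p' * e' = e' * p')
    (he : e * e = e) (he' : e' * e' = e') :
    p' * e' * F * (p' * e) - y * e' * (p * e' * F * (p * e)) * (x * e) =
      (p' * e') * (F * y - y * F) * (x * e) := by
  have h1 : y * e' * (p * e') = p' * e' * y := by
    rw [hp', ← mul_assoc, mul_assoc y e' e', he', hy', mul_assoc e' y p, hyp, hq,
      mul_assoc e' p' y, hyy]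
  have h2 : p * e * (x * e) = x * e := by
    rw [hx, mul_assoc, ← mul_assoc e e x, he, ← mul_assoc, hp, mul_assoc, hpx]
  have h3 : y * e' * (p * e' * F * (p * e)) * (x * e) =
      y * e' * (p * e') * F * (p * e * (x * e)) := by noncomm_ring
  rw [h3, h1, h2, ← hyx]
  noncomm_ring

end Alg

section Cut

variable {G X : Type} [Group G] [TopologicalSpace X] [MulAction G X] [ContinuousConstSMul G X]
  {H : Type} [NormedAddCommGroup H] [InnerProductSpace ℂ H] [CompleteSpace H]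
  (Z : Cycle G X H) [ProperlyDiscontinuousSMul G X] {v w : C₀(X, ℂ)}

theorem mix_e₀ (hv : HasCompactSupport v) (hw : HasCompactSupport w) :
    mix Z v w * MonoidAlgebra.single 1 Z.e₀ = MonoidAlgebra.single 1 Z.e₀ * mix Z v w :=
  mix_comm Z hv hw (fun f => Z.e₀_comm (Z.ρ_even f)) fun g => Z.e₀_comm (Z.U_even g)

theorem mix_e₁ (hv : HasCompactSupport v) (hw : HasCompactSupport w) :
    mix Z v w * MonoidAlgebra.single 1 Z.e₁ = MonoidAlgebra.single 1 Z.e₁ * mix Z v w :=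
  mix_comm Z hv hw (fun f => Z.e₁_comm (Z.ρ_even f)) fun g => Z.e₁_comm (Z.U_even g)

theorem even_mix (hv : IsCutoff G X v) (hw : IsCutoff G X w) :
    Z.even (mix Z v w) * Z.even (mix Z w v) = Z.even (Z.proj v) :=
  alg_eq (mix_mul Z hv.1 hw hv.1) (mix_e₀ Z hw.1 hv.1) (single_idem Z.e₀_idem)

theorem odd_mix (hv : IsCutoff G X v) (hw : IsCutoff G X w) :
    Z.odd (mix Z v w) * Z.odd (mix Z w v) = Z.odd (Z.proj v) :=
  alg_eq (mix_mul Z hv.1 hw hv.1) (mix_e₁ Z hw.1 hv.1) (single_idem Z.e₁_idem)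

theorem ideal_swap {a b : MonoidAlgebra (H →L[ℂ] H) G} (h : P089Z.Ideal (a - b)) :
    P089Z.Ideal (b - a) := by
  rw [← _root_.neg_sub]
  exact h.neg

theorem ideal_df {x y p p' e e' F : MonoidAlgebra (H →L[ℂ] H) G} (hyx : y * x = p')
    (hyp : y * p = y) (hpx : p * x = x) (hyy : p' * y = y) (hx : x * e = e * x)
    (hy' : y * e' = e' * y) (hp : p * e = e * p) (hp' : p * e' = e' * p) (hq : p' * e' = e' * p')
    (he : e * e = e) (he' : e' * e' = e') (h : P089Z.Ideal (y * F - F * y)) :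
    P089Z.Ideal (p' * e' * F * (p' * e) - y * e' * (p * e' * F * (p * e)) * (x * e)) := by
  rw [alg_df hyx hyp hpx hyy hx hy' hp hp' hq he he']
  exact ((ideal_swap h).mul_left _).mul_right _

theorem T_mix (hv : IsCutoff G X v) (hw : IsCutoff G X w) :
    P089Z.Ideal (Z.odd (Z.proj w) * MonoidAlgebra.single 1 Z.F * Z.even (Z.proj w) -
      Z.odd (mix Z w v) * (Z.odd (Z.proj v) * MonoidAlgebra.single 1 Z.F * Z.even (Z.proj v)) *
        Z.even (mix Z v w)) :=
  ideal_df (mix_mul Z hw.1 hv hw.1)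
    (mix_mul Z hw.1 hv hv.1) (mix_mul Z hv.1 hv hw.1) (mix_mul Z hw.1 hw hv.1)
    (mix_e₀ Z hv.1 hw.1) (mix_e₁ Z hw.1 hv.1) (mix_e₀ Z hv.1 hv.1) (mix_e₁ Z hv.1 hv.1)
    (mix_e₁ Z hw.1 hw.1) (single_idem Z.e₀_idem) (single_idem Z.e₁_idem) (mix_ideal Z hw.1 hv.1)

theorem S_mix (hv : IsCutoff G X v) (hw : IsCutoff G X w) :
    P089Z.Ideal (Z.even (Z.proj w) * MonoidAlgebra.single 1 Z.F * Z.odd (Z.proj w) -
      Z.even (mix Z w v) * (Z.even (Z.proj v) * MonoidAlgebra.single 1 Z.F * Z.odd (Z.proj v)) *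
        Z.odd (mix Z v w)) :=
  ideal_df (mix_mul Z hw.1 hv hw.1)
    (mix_mul Z hw.1 hv hv.1) (mix_mul Z hv.1 hv hw.1) (mix_mul Z hw.1 hw hv.1)
    (mix_e₁ Z hv.1 hw.1) (mix_e₀ Z hw.1 hv.1) (mix_e₁ Z hv.1 hv.1) (mix_e₀ Z hv.1 hv.1)
    (mix_e₀ Z hw.1 hw.1) (single_idem Z.e₁_idem) (single_idem Z.e₀_idem) (mix_ideal Z hw.1 hv.1)

end Cut

end Vale.Agent.P089GI
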